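import Mathlib

/-!
# Lattice points in Euclidean balls (P262)
-/

set_option autoImplicit false

open Finset

namespace Vale.Agent.P262.H63

/-- One dimensional theta sum over the integers with nonnegative distance. -/
lemma half_sum (D : ℝ) (hD : 1 ≤ D) (T : Finset ℤ) (g : ℤ → ℕ) (hg : Set.InjOn g T)
    (f : ℤ → ℝ) (hf : ∀ k ∈ T, (g k : ℝ) ≤ f k) :
    ∑ k ∈ T, Real.exp (-((f k) / D) ^ 2) ≤ 9 / 2 * D := by
  have hD0 : 0 < D := by linarith
  set r : ℝ := Real.exp (-(2 / D)) with hr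
  have hr0 : 0 < r := Real.exp_pos _
  have hr1 : r < 1 := by
    rw [hr, ← Real.exp_zero]
    have : 0 < 2 / D := by positivity
    exact Real.exp_lt_exp.2 (by linarith)
  have h1 : ∀ k ∈ T, Real.exp (-((f k) / D) ^ 2) ≤ Real.exp 1 * r ^ (g k) := by
    intro k hk
    rw [hr, ← Real.exp_nat_mul, ← Real.exp_add]
    apply Real.exp_le_exp.2
    have h2 : (g k : ℝ) / D ≤ f k / D := by gcongr; exact hf k hk
    have h3 : (0 : ℝ) ≤ (g k : ℝ) / D := by positivity
    have h4 : (g k : ℝ) * -(2 / D) = -(2 * ((g k : ℝ) / D)) := by ring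
    rw [h4]
    nlinarith [sq_nonneg (f k / D - 1), sq_nonneg (f k / D)]
  calc ∑ k ∈ T, Real.exp (-((f k) / D) ^ 2) ≤ ∑ k ∈ T, Real.exp 1 * r ^ (g k) := sum_le_sum h1
    _ = Real.exp 1 * ∑ n ∈ T.image g, r ^ n := by
        rw [Finset.sum_image (fun a ha b hb h => hg ha hb h), Finset.mul_sum]
    _ ≤ Real.exp 1 * (1 - r)⁻¹ := by
        apply mul_le_mul_of_nonneg_left _ (Real.exp_pos 1).le
        rw [← tsum_geometric_of_lt_one hr0.le hr1]
        exact (summable_geometric_of_lt_one hr0.le hr1).sum_le_tsum _ (fun n _ => by positivity)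
    _ ≤ Real.exp 1 * (3 / 2 * D) := by
        apply mul_le_mul_of_nonneg_left _ (Real.exp_pos 1).le
        have h5 : r ≤ 1 / (1 + 2 / D) := by
          rw [hr, Real.exp_neg, one_div]
          apply inv_anti₀ (by positivity)
          have := Real.add_one_le_exp (2 / D)
          linarith
        have h6 : (1 + 2 / D) = (D + 2) / D := by field_simp
        rw [h6, one_div_div] at h5
        have h7 : 2 / (D + 2) ≤ 1 - r := by
          have : D / (D + 2) = 1 - 2 / (D + 2) := by field_simp; ring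
          linarith
        have h8 : (1 - r)⁻¹ ≤ (2 / (D + 2))⁻¹ := inv_anti₀ (by positivity) h7
        rw [inv_div] at h8
        linarith
    _ ≤ 9 / 2 * D := by
        have := Real.exp_one_lt_d9
        nlinarith

/-- One dimensional theta sum. -/
lemma line_sum (D : ℝ) (hD : 1 ≤ D) (T : Finset ℤ) (t : ℝ) :
    ∑ k ∈ T, Real.exp (-(((k : ℝ) - t) / D) ^ 2) ≤ 9 * D := by
  classical
  rw [← Finset.sum_filter_add_sum_filter_not T (fun k : ℤ => t < k)]
  have h1 : ∑ k ∈ T.filter (fun k : ℤ => t < k), Real.exp (-(((k : ℝ) - t) / D) ^ 2)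
      ≤ 9 / 2 * D := by
    refine half_sum D hD _ (fun k => (k - ⌊t⌋ - 1).toNat) ?_ (fun k => (k : ℝ) - t) ?_
    · intro a ha b hb hab
      simp only [coe_filter, Set.mem_ofPred_eq] at ha hb
      have ha' : ⌊t⌋ < a := Int.floor_lt.2 ha.2
      have hb' : ⌊t⌋ < b := Int.floor_lt.2 hb.2
      simp only at hab
      omega
    · intro k hk
      simp only [mem_filter] at hk
      have hk' : ⌊t⌋ < k := Int.floor_lt.2 hk.2
      have h2 : (((k - ⌊t⌋ - 1).toNat : ℤ) : ℝ) = (k : ℝ) - ⌊t⌋ - 1 := by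
        rw [Int.toNat_of_nonneg (by omega)]
        push_cast; ring
      have h3 : (((k - ⌊t⌋ - 1).toNat : ℕ) : ℝ) = (k : ℝ) - ⌊t⌋ - 1 := by
        rw [← h2]; norm_cast
      rw [h3]
      have := Int.lt_floor_add_one t
      linarith
  have h2 : ∑ k ∈ T.filter (fun k : ℤ => ¬ t < k), Real.exp (-(((k : ℝ) - t) / D) ^ 2)
      ≤ 9 / 2 * D := by
    have h3 : ∀ k : ℤ, Real.exp (-(((k : ℝ) - t) / D) ^ 2)
        = Real.exp (-((t - (k : ℝ)) / D) ^ 2) := by
      intro k
      congr 1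
      ring
    rw [Finset.sum_congr rfl (fun k _ => h3 k)]
    refine half_sum D hD _ (fun k => (⌊t⌋ - k).toNat) ?_ (fun k => t - (k : ℝ)) ?_
    · intro a ha b hb hab
      simp only [coe_filter, Set.mem_ofPred_eq, not_lt] at ha hb
      have ha' : a ≤ ⌊t⌋ := Int.le_floor.2 ha.2
      have hb' : b ≤ ⌊t⌋ := Int.le_floor.2 hb.2
      simp only at hab
      omega
    · intro k hk
      simp only [mem_filter, not_lt] at hk
      have hk' : k ≤ ⌊t⌋ := Int.le_floor.2 hk.2
      have h2 : (((⌊t⌋ - k).toNat : ℤ) : ℝ) = (⌊t⌋ : ℝ) - k := by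
        rw [Int.toNat_of_nonneg (by omega)]
        push_cast; ring
      have h3 : (((⌊t⌋ - k).toNat : ℕ) : ℝ) = (⌊t⌋ : ℝ) - k := by
        rw [← h2]; norm_cast
      rw [h3]
      have := Int.floor_le t
      linarith
  linarith

/-- Number of integer points in a Euclidean ball of radius `√(a m) D` about any centre. -/
theorem card_ball {m : ℕ} (D a : ℝ) (hD : 1 ≤ D) (c : Fin m → ℝ) (S : Finset (Fin m → ℤ))
    (hS : ∀ z ∈ S, ∑ i, ((z i : ℝ) - c i) ^ 2 ≤ a * m * D ^ 2) :
    (S.card : ℝ) ≤ (9 * Real.exp a * D) ^ m := by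
  classical
  have hD0 : 0 < D := by linarith
  -- one finite set of integers for every coordinate
  set T : Fin m → Finset ℤ := fun i => S.image (fun z => z i) with hT
  have hsub : S ⊆ Fintype.piFinset T := by
    intro z hz
    rw [Fintype.mem_piFinset]
    intro i
    exact Finset.mem_image_of_mem _ hz
  have h1 : ∀ z ∈ S, (1 : ℝ) ≤ Real.exp (a * m) *
      ∏ i, Real.exp (-(((z i : ℝ) - c i) / D) ^ 2) := by
    intro z hz
    rw [← Real.exp_sum, ← Real.exp_add]
    apply Real.one_le_exp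
    have h2 := hS z hz
    have h3 : ∑ i, -(((z i : ℝ) - c i) / D) ^ 2 = -((∑ i, ((z i : ℝ) - c i) ^ 2) / D ^ 2) := by
      rw [Finset.sum_div, ← Finset.sum_neg_distrib]
      refine Finset.sum_congr rfl fun i _ => ?_
      rw [div_pow]
    rw [h3]
    have h4 : (∑ i, ((z i : ℝ) - c i) ^ 2) / D ^ 2 ≤ a * m := by
      rw [div_le_iff₀ (by positivity)]
      exact h2
    linarith
  calc (S.card : ℝ) = ∑ z ∈ S, (1 : ℝ) := by simp
    _ ≤ ∑ z ∈ S, Real.exp (a * m) * ∏ i, Real.exp (-(((z i : ℝ) - c i) / D) ^ 2) :=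
        Finset.sum_le_sum h1
    _ ≤ ∑ z ∈ Fintype.piFinset T, Real.exp (a * m) *
          ∏ i, Real.exp (-(((z i : ℝ) - c i) / D) ^ 2) :=
        Finset.sum_le_sum_of_subset_of_nonneg hsub (fun z _ _ => by positivity)
    _ = Real.exp (a * m) * ∏ i, ∑ k ∈ T i, Real.exp (-(((k : ℝ) - c i) / D) ^ 2) := by
        rw [← Finset.mul_sum, Finset.prod_univ_sum]
    _ ≤ Real.exp (a * m) * ∏ _i : Fin m, (9 * D) := by
        apply mul_le_mul_of_nonneg_left _ (Real.exp_pos _).le
        exact Finset.prod_le_prod (fun i _ => Finset.sum_nonneg fun k _ => (Real.exp_pos _).le)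
          (fun i _ => line_sum D hD _ _)
    _ = (9 * Real.exp a * D) ^ m := by
        rw [Finset.prod_const, Finset.card_univ, Fintype.card_fin]
        rw [show Real.exp (a * m) = Real.exp a ^ m by rw [← Real.exp_nat_mul]; ring_nf]
        rw [← mul_pow]
        ring_nf

end Vale.Agent.P262.H63
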