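import Vale.Agent.P262.MathlibUsed

/-!
# Graver basis and integer programs in equality form (P262)
-/

set_option autoImplicit false

namespace Vale.Agent.P262.H63

/-- Every column of the integer matrix `A` has Euclidean norm at most `D`. -/
def ColNormLE {m n : ℕ} (A : Matrix (Fin m) (Fin n) ℤ) (D : ℝ) : Prop :=
  ∀ j, Real.sqrt (∑ i, (A i j : ℝ) ^ 2) ≤ D

/-- `u` is an element of the Graver basis of `A`: a nonzero integer vector with `A u = 0` such that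
the only integer vectors `w` with `A w = 0` lying between `0` and `u` coordinatewise (same sign
and `|w j| ≤ |u j|`) are `0` and `u`. -/
def IsGraver {m n : ℕ} (A : Matrix (Fin m) (Fin n) ℤ) (u : Fin n → ℤ) : Prop :=
  u ≠ 0 ∧ A.mulVec u = 0 ∧
    ∀ w : Fin n → ℤ, A.mulVec w = 0 → (∀ j, 0 ≤ w j * u j ∧ |w j| ≤ |u j|) → w = 0 ∨ w = u

/-- The polyhedron `{x ∈ ℝ^n : A x = b, x ≥ 0}`. -/
def polyhedron {m n : ℕ} (A : Matrix (Fin m) (Fin n) ℤ) (b : Fin m → ℤ) : Set (Fin n → ℝ) :=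
  {x | (∀ i, ∑ j, (A i j : ℝ) * x j = b i) ∧ ∀ j, 0 ≤ x j}

/-- `x` minimises the linear function `x ↦ ∑ c_j x_j` on `S`. -/
def IsOptimal {n : ℕ} (c : Fin n → ℝ) (S : Set (Fin n → ℝ)) (x : Fin n → ℝ) : Prop :=
  x ∈ S ∧ ∀ y ∈ S, ∑ j, c j * x j ≤ ∑ j, c j * y j

/-- The set of the integer points of `S`. -/
def integerPoints {n : ℕ} (S : Set (Fin n → ℝ)) : Set (Fin n → ℝ) :=
  {x | x ∈ S ∧ ∀ j, ∃ k : ℤ, x j = k}

end Vale.Agent.P262.H63
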