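import Vale.Agent.P262.H63.Sub

/-!
# Conformal decompositions of integer vectors (P262)
-/

set_option autoImplicit false

open Finset

namespace Vale.Agent.P262.H63

/-- The constant of the integer programming bounds. -/
noncomputable def CC (K : ℝ) : ℝ := 18 * Real.exp ((K + 1) ^ 2)

/-- An integer vector `p` with large `ℓ_1` norm and small image under `A` has a proper nonzero
conformal part in the kernel of `A`. -/
theorem core {K : ℝ} (hord : Ord K) {m n : ℕ} (hm : 1 ≤ m) {D : ℝ} (hD : 1 ≤ D)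
    (A : Matrix (Fin m) (Fin n) ℤ) (hA : ∀ j, ∑ i, (A i j : ℝ) ^ 2 ≤ D ^ 2) (p : Fin n → ℤ)
    (hs : ∑ i, (∑ j, (A i j : ℝ) * (p j : ℝ)) ^ 2 ≤ (m * D) ^ 2)
    (hN : (CC K * D) ^ m < ∑ j, |(p j : ℝ)|) :
    ∃ w : Fin n → ℤ, A.mulVec w = 0 ∧ w ≠ 0 ∧ w ≠ p ∧
      ∀ j, 0 ≤ w j * p j ∧ |w j| ≤ |p j| := by
  classical
  set N : ℕ := ∑ j, (p j).natAbs with hNdef
  have hna : ∀ j, (((p j).natAbs : ℕ) : ℝ) = |(p j : ℝ)| := fun j => by
    rw [Nat.cast_natAbs, Int.cast_abs]
  have hNr : (N : ℝ) = ∑ j, |(p j : ℝ)| := by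
    rw [hNdef, Nat.cast_sum]
    exact Finset.sum_congr rfl fun j _ => hna j
  have hcard : Fintype.card (Σ j : Fin n, Fin (p j).natAbs) = N := by
    rw [Fintype.card_sigma]
    simp [hNdef]
  set e : (Σ j : Fin n, Fin (p j).natAbs) ≃ Fin N := Fintype.equivFinOfCardEq hcard with he
  set v : Fin N → Fin m → ℤ := fun t i => (p (e.symm t).1).sign * A i (e.symm t).1 with hv
  have hp0 : ∀ t : Fin N, p (e.symm t).1 ≠ 0 := by
    intro t h0
    have h1 := (e.symm t).2.isLt
    have h2 : (p (e.symm t).1).natAbs = 0 := by rw [h0]; rfl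
    omega
  have hvn : ∀ t, ∑ i, (v t i : ℝ) ^ 2 ≤ D ^ 2 := by
    intro t
    refine le_trans (le_of_eq ?_) (hA (e.symm t).1)
    refine Finset.sum_congr rfl fun i _ => ?_
    simp only [hv]
    push_cast
    rw [mul_pow]
    have h1 : ((p (e.symm t).1).sign : ℝ) ^ 2 = 1 := by
      rcases lt_or_gt_of_ne (hp0 t) with h | h
      · rw [Int.sign_eq_neg_one_of_neg h]; norm_num
      · rw [Int.sign_eq_one_of_pos h]; norm_num
    rw [h1, one_mul]
  have hsum : ∀ i, ∑ t, (v t i : ℝ) = ∑ j, (A i j : ℝ) * (p j : ℝ) := by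
    intro i
    rw [← e.sum_comp]
    rw [Fintype.sum_sigma]
    refine Finset.sum_congr rfl fun j _ => ?_
    simp only [hv, Equiv.symm_apply_apply, Finset.sum_const, Finset.card_univ, Fintype.card_fin,
      nsmul_eq_mul]
    push_cast
    have h1 : (((p j).natAbs : ℕ) : ℝ) * ((p j).sign : ℝ) = (p j : ℝ) := by
      have h2 := Int.sign_mul_natAbs (p j)
      have h3 : (((p j).sign * ((p j).natAbs : ℤ) : ℤ) : ℝ) = (p j : ℝ) := by rw [h2]
      rw [Int.cast_mul, Int.cast_natCast] at h3
      linarith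
    calc _ = ((((p j).natAbs : ℕ) : ℝ) * ((p j).sign : ℝ)) * (A i j : ℝ) := by ring
      _ = _ := by rw [h1]; ring
  obtain ⟨S, hS1, hS2, hS3⟩ := exists_sub hord hm hD v hvn (by
    refine le_trans (le_of_eq ?_) hs
    exact Finset.sum_congr rfl fun i _ => by rw [hsum i]) (by
    rw [hNr]
    exact hN)
  -- multiplicities
  set q : Fin n → ℕ := fun j => (S.filter (fun t => (e.symm t).1 = j)).card with hq
  have hqall : ∀ j, (univ.filter (fun t : Fin N => (e.symm t).1 = j)).card = (p j).natAbs := by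
    intro j
    have h1 : (univ.filter (fun t : Fin N => (e.symm t).1 = j))
        = (univ : Finset (Fin (p j).natAbs)).map
          ((Function.Embedding.sigmaMk j).trans e.toEmbedding) := by
      ext t
      simp only [Finset.mem_filter, Finset.mem_univ, true_and, Finset.mem_map]
      constructor
      · intro h
        subst h
        exact ⟨(e.symm t).2, e.apply_symm_apply t⟩
      · rintro ⟨a, rfl⟩
        change (e.symm (e ⟨j, a⟩)).1 = j
        rw [Equiv.symm_apply_apply]
    rw [h1, Finset.card_map, Finset.card_univ, Fintype.card_fin]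
  have hqle : ∀ j, q j ≤ (p j).natAbs := by
    intro j
    rw [← hqall j]
    exact Finset.card_le_card (Finset.filter_subset_filter _ (Finset.subset_univ _))
  have habs : ∀ j, |(p j).sign * (q j : ℤ)| ≤ (q j : ℤ) := by
    intro j
    rw [abs_mul]
    have h1 : |(p j).sign| ≤ 1 := by
      rcases Int.sign_trichotomy (p j) with h | h | h <;> simp [h]
    calc |(p j).sign| * |(q j : ℤ)| ≤ 1 * |(q j : ℤ)| :=
          mul_le_mul_of_nonneg_right h1 (abs_nonneg _)
      _ = (q j : ℤ) := by rw [one_mul, abs_of_nonneg (by positivity)]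
  refine ⟨fun j => (p j).sign * (q j : ℤ), ?_, ?_, ?_, fun j => ⟨?_, ?_⟩⟩
  · funext i
    rw [Matrix.mulVec, dotProduct, Pi.zero_apply]
    have h1 := hS3 i
    have h2 : ∑ t ∈ S, v t i = ∑ j, ∑ t ∈ S.filter (fun t => (e.symm t).1 = j), v t i :=
      (Finset.sum_fiberwise S (fun t => (e.symm t).1) (fun t => v t i)).symm
    rw [h2] at h1
    rw [← h1]
    refine Finset.sum_congr rfl fun j _ => ?_
    have h3 : ∀ t ∈ S.filter (fun t => (e.symm t).1 = j), v t i = (p j).sign * A i j := by
      intro t ht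
      have h4 := (Finset.mem_filter.1 ht).2
      simp only [hv]
      rw [h4]
    rw [Finset.sum_congr rfl h3, Finset.sum_const, nsmul_eq_mul]
    simp only [hq]
    ring
  · intro h
    obtain ⟨t, ht⟩ := hS1
    have h1 := congrFun h (e.symm t).1
    simp only [Pi.zero_apply, mul_eq_zero, Int.sign_eq_zero_iff_zero] at h1
    rcases h1 with h1 | h1
    · exact hp0 t h1
    · have h2 : q (e.symm t).1 = 0 := by exact_mod_cast h1
      simp only [hq, Finset.card_eq_zero] at h2
      have h3 : t ∈ S.filter (fun t' => (e.symm t').1 = (e.symm t).1) :=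
        Finset.mem_filter.2 ⟨ht, rfl⟩
      rw [h2] at h3
      exact absurd h3 (Finset.notMem_empty _)
  · intro h
    obtain ⟨t, ht⟩ : ∃ t, t ∉ S := by
      by_contra hcon
      push Not at hcon
      exact hS2 (Finset.eq_univ_iff_forall.2 hcon)
    have h1 := congrFun h (e.symm t).1
    have h2 : q (e.symm t).1 < (p (e.symm t).1).natAbs := by
      rw [← hqall]
      apply Finset.card_lt_card
      rw [Finset.ssubset_iff_of_subset
        (Finset.filter_subset_filter _ (Finset.subset_univ _))]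
      exact ⟨t, Finset.mem_filter.2 ⟨Finset.mem_univ _, rfl⟩, fun h3 =>
        ht (Finset.mem_filter.1 h3).1⟩
    have h3 := habs (e.symm t).1
    rw [h1] at h3
    have h4 : |p (e.symm t).1| = ((p (e.symm t).1).natAbs : ℤ) := Int.abs_eq_natAbs _
    rw [h4] at h3
    have h5 : (p (e.symm t).1).natAbs ≤ q (e.symm t).1 := by exact_mod_cast h3
    omega
  · have h1 : (p j).sign * (q j : ℤ) * p j = ((p j).sign * p j) * q j := by ring
    rw [h1, Int.sign_mul_self]
    positivity
  · refine (habs j).trans ?_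
    rw [Int.abs_eq_natAbs]
    exact_mod_cast hqle j

end Vale.Agent.P262.H63
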