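import Vale.Agent.P262.H63.Defs
import Mathlib

/-!
# Graver basis elements of large norm (P262)
-/

set_option autoImplicit false

open Finset

namespace Vale.Agent.P262.H63

/-- For all `m ≥ 1` and `D ≥ 2` some integer matrix with `m` rows and columns of norm at most `D`
has a Graver basis element of `ℓ_1` norm at least `(D / 3)^m`. -/
theorem exists_large {m : ℕ} {D : ℝ} (hD : 2 ≤ D) :
    ∃ (n : ℕ) (A : Matrix (Fin m) (Fin n) ℤ) (u : Fin n → ℤ),
      ColNormLE A D ∧ IsGraver A u ∧ (1 / 3 * D) ^ m ≤ ∑ j, |(u j : ℝ)| := by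
  set q : ℤ := ⌊D⌋ - 1 with hq
  have hfl : (2 : ℤ) ≤ ⌊D⌋ := Int.le_floor.2 (by exact_mod_cast hD)
  have hq1 : 1 ≤ q := by omega
  have hqr1 : (1 : ℝ) ≤ q := by exact_mod_cast hq1
  have hqD : (q : ℝ) + 1 ≤ D := by
    have h1 := Int.floor_le D
    have h2 : (q : ℝ) = (⌊D⌋ : ℝ) - 1 := by rw [hq]; push_cast; ring
    linarith
  have hqD3 : 1 / 3 * D ≤ q := by
    have h1 := Int.lt_floor_add_one D
    have h2 : (q : ℝ) = (⌊D⌋ : ℝ) - 1 := by rw [hq]; push_cast; ring
    linarith
  set A : Matrix (Fin m) (Fin (m + 1)) ℤ := fun i j =>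
    if j = i.castSucc then q else if j = i.succ then -1 else 0 with hA
  have hrow : ∀ (w : Fin (m + 1) → ℤ) (i : Fin m),
      A.mulVec w i = q * w i.castSucc - w i.succ := by
    intro w i
    rw [Matrix.mulVec, dotProduct]
    have h1 : ∀ j, A i j * w j
        = (if j = i.castSucc then q * w j else 0) + (if j = i.succ then - w j else 0) := by
      intro j
      simp only [hA]
      by_cases h2 : j = i.castSucc
      · have h3 : j ≠ i.succ := by
          rw [h2]
          exact (Fin.castSucc_lt_succ).ne
        simp [h2, (Fin.castSucc_lt_succ (i := i)).ne]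
      · by_cases h3 : j = i.succ
        · simp [h3, (Fin.castSucc_lt_succ (i := i)).ne']
        · simp [h2, h3]
    rw [Finset.sum_congr rfl fun j _ => h1 j, Finset.sum_add_distrib]
    simp
    ring
  set u : Fin (m + 1) → ℤ := fun j => q ^ (j : ℕ) with hu
  have hker : ∀ w : Fin (m + 1) → ℤ, A.mulVec w = 0 → ∀ j, w j = w 0 * q ^ (j : ℕ) := by
    intro w hw j
    induction j using Fin.induction with
    | zero => simp
    | succ i ih =>
      have h1 := congrFun hw i
      rw [hrow, Pi.zero_apply] at h1
      have h2 : w i.succ = q * w i.castSucc := by linarith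
      rw [h2, ih]
      simp only [Fin.val_castSucc, Fin.val_succ]
      ring
  refine ⟨m + 1, A, u, ?_, ⟨?_, ?_, ?_⟩, ?_⟩
  · intro j
    apply Real.sqrt_le_iff.2
    refine ⟨by linarith, ?_⟩
    have h1 : ∀ i, (A i j : ℝ) ^ 2 = (if j = i.castSucc then (q : ℝ) ^ 2 else 0)
        + (if j = i.succ then (1 : ℝ) else 0) := by
      intro i
      simp only [hA]
      by_cases h2 : j = i.castSucc
      · simp [h2, (Fin.castSucc_lt_succ (i := i)).ne]
      · by_cases h3 : j = i.succ
        · simp [h3, (Fin.castSucc_lt_succ (i := i)).ne']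
        · simp [h2, h3]
    rw [Finset.sum_congr rfl fun i _ => h1 i, Finset.sum_add_distrib]
    have h2 : ∑ i : Fin m, (if j = i.castSucc then (q : ℝ) ^ 2 else 0) ≤ (q : ℝ) ^ 2 := by
      rw [← Finset.sum_filter, Finset.sum_const, nsmul_eq_mul]
      have h3 : (univ.filter (fun i : Fin m => j = i.castSucc)).card ≤ 1 := by
        rw [Finset.card_le_one]
        intro a ha b hb
        simp only [Finset.mem_filter, Finset.mem_univ, true_and] at ha hb
        exact Fin.castSucc_injective m (ha.symm.trans hb)
      have h4 : ((univ.filter (fun i : Fin m => j = i.castSucc)).card : ℝ) ≤ 1 := by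
        exact_mod_cast h3
      nlinarith [sq_nonneg (q : ℝ)]
    have h5 : ∑ i : Fin m, (if j = i.succ then (1 : ℝ) else 0) ≤ 1 := by
      rw [← Finset.sum_filter, Finset.sum_const, nsmul_eq_mul, mul_one]
      have h3 : (univ.filter (fun i : Fin m => j = i.succ)).card ≤ 1 := by
        rw [Finset.card_le_one]
        intro a ha b hb
        simp only [Finset.mem_filter, Finset.mem_univ, true_and] at ha hb
        exact Fin.succ_injective m (ha.symm.trans hb)
      exact_mod_cast h3
    nlinarith
  · intro h
    have h1 := congrFun h 0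
    simp [hu] at h1
  · funext i
    rw [hrow, Pi.zero_apply]
    simp only [hu, Fin.val_castSucc, Fin.val_succ]
    ring
  · intro w hw hcon
    have h1 := hcon 0
    simp only [hu, Fin.val_zero, pow_zero, mul_one, abs_one] at h1
    have h2 : w 0 = 0 ∨ w 0 = 1 := by
      have := abs_le.1 h1.2
      omega
    rcases h2 with h2 | h2
    · left
      funext j
      rw [hker w hw j, h2]
      simp
    · right
      funext j
      rw [hker w hw j, h2, one_mul]
  · calc (1 / 3 * D) ^ m ≤ (q : ℝ) ^ m := pow_le_pow_left₀ (by positivity) hqD3 m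
      _ = |(u (Fin.last m) : ℝ)| := by
          simp only [hu, Fin.val_last]
          push_cast
          rw [abs_of_nonneg (by positivity)]
      _ ≤ ∑ j, |(u j : ℝ)| :=
          Finset.single_le_sum (f := fun j => |(u j : ℝ)|) (fun j _ => abs_nonneg _)
            (Finset.mem_univ _)

end Vale.Agent.P262.H63
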