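import Vale.Agent.P262.H63.Defs
import Mathlib

/-!
# Integer programs with distant vertices and integer solutions (P262)
-/

set_option autoImplicit false

open Finset

namespace Vale.Agent.P262.H63

/-- The chain matrix: row `i` is `q e_i - e_(i+1)`. -/
def chain (m : ℕ) (q : ℤ) : Matrix (Fin m) (Fin (m + 1)) ℤ := fun i j =>
  if j = i.castSucc then q else if j = i.succ then -1 else 0

lemma chain_row (m : ℕ) (q : ℤ) (y : Fin (m + 1) → ℝ) (i : Fin m) :
    ∑ j, (chain m q i j : ℝ) * y j = q * y i.castSucc - y i.succ := by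
  have h1 : ∀ j, (chain m q i j : ℝ) * y j
      = (if j = i.castSucc then (q : ℝ) * y j else 0) + (if j = i.succ then - y j else 0) := by
    intro j
    simp only [chain]
    by_cases h2 : j = i.castSucc
    · simp [h2, (Fin.castSucc_lt_succ (i := i)).ne]
    · by_cases h3 : j = i.succ
      · simp [h3, (Fin.castSucc_lt_succ (i := i)).ne']
      · simp [h2, h3]
  rw [Finset.sum_congr rfl fun j _ => h1 j, Finset.sum_add_distrib]
  simp
  ring

lemma chain_ker (m : ℕ) (q : ℤ) (y : Fin (m + 1) → ℝ)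
    (hy : ∀ i, ∑ j, (chain m q i j : ℝ) * y j = 0) (j : Fin (m + 1)) :
    y j = y 0 * (q : ℝ) ^ (j : ℕ) := by
  induction j using Fin.induction with
  | zero => simp
  | succ i ih =>
    have h1 := hy i
    rw [chain_row] at h1
    have h2 : y i.succ = q * y i.castSucc := by linarith
    rw [h2, ih]
    simp only [Fin.val_castSucc, Fin.val_succ]
    ring

lemma chain_norm (m : ℕ) {q : ℤ} (hq : 1 ≤ q) {D : ℝ} (hD : (q : ℝ) + 1 ≤ D) :
    ColNormLE (chain m q) D := by
  have hqr : (1 : ℝ) ≤ q := by exact_mod_cast hq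
  intro j
  apply Real.sqrt_le_iff.2
  refine ⟨by linarith, ?_⟩
  have h1 : ∀ i, (chain m q i j : ℝ) ^ 2 = (if j = i.castSucc then (q : ℝ) ^ 2 else 0)
      + (if j = i.succ then (1 : ℝ) else 0) := by
    intro i
    simp only [chain]
    by_cases h2 : j = i.castSucc
    · simp [h2, (Fin.castSucc_lt_succ (i := i)).ne]
    · by_cases h3 : j = i.succ
      · simp [h3, (Fin.castSucc_lt_succ (i := i)).ne']
      · simp [h2, h3]
  rw [Finset.sum_congr rfl fun i _ => h1 i, Finset.sum_add_distrib]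
  have h2 : ∑ i : Fin m, (if j = i.castSucc then (q : ℝ) ^ 2 else 0) ≤ (q : ℝ) ^ 2 := by
    rw [← Finset.sum_filter, Finset.sum_const, nsmul_eq_mul]
    have h3 : (univ.filter (fun i : Fin m => j = i.castSucc)).card ≤ 1 := by
      rw [Finset.card_le_one]
      intro a ha b hb
      simp only [Finset.mem_filter, Finset.mem_univ, true_and] at ha hb
      exact Fin.castSucc_injective m (ha.symm.trans hb)
    have h4 : ((univ.filter (fun i : Fin m => j = i.castSucc)).card : ℝ) ≤ 1 := by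
      exact_mod_cast h3
    nlinarith [sq_nonneg (q : ℝ)]
  have h5 : ∑ i : Fin m, (if j = i.succ then (1 : ℝ) else 0) ≤ 1 := by
    rw [← Finset.sum_filter, Finset.sum_const, nsmul_eq_mul, mul_one]
    have h3 : (univ.filter (fun i : Fin m => j = i.succ)).card ≤ 1 := by
      rw [Finset.card_le_one]
      intro a ha b hb
      simp only [Finset.mem_filter, Finset.mem_univ, true_and] at ha hb
      exact Fin.succ_injective m (ha.symm.trans hb)
    exact_mod_cast h3
  nlinarith

/-- For all `m ≥ 1` and `D ≥ 3` some integer program with `m` equations and columns of norm at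
most `D` has an optimal vertex at `ℓ_1` distance at least `(D / 6)^m` from every optimal integer
solution. -/
theorem exists_far {m : ℕ} (hm : 1 ≤ m) {D : ℝ} (hD : 3 ≤ D) :
    ∃ (n : ℕ) (A : Matrix (Fin m) (Fin n) ℤ) (b : Fin m → ℤ) (a x : Fin n → ℝ),
      ColNormLE A D ∧ x ∈ (polyhedron A b).extremePoints ℝ ∧ IsOptimal a (polyhedron A b) x ∧
      (integerPoints (polyhedron A b)).Nonempty ∧
      ∀ z, IsOptimal a (integerPoints (polyhedron A b)) z →
        (1 / 6 * D) ^ m ≤ ∑ j, |x j - z j| := by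
  set q : ℤ := ⌊D⌋ - 1 with hq
  have hfl : (3 : ℤ) ≤ ⌊D⌋ := Int.le_floor.2 (by exact_mod_cast hD)
  have hq2 : 2 ≤ q := by omega
  have hqr : (2 : ℝ) ≤ q := by exact_mod_cast hq2
  have hq0 : (0 : ℝ) < q := by linarith
  have hqD : (q : ℝ) + 1 ≤ D := by
    have h1 := Int.floor_le D
    have h2 : (q : ℝ) = (⌊D⌋ : ℝ) - 1 := by rw [hq]; push_cast; ring
    linarith
  have hqD3 : 1 / 3 * D ≤ q := by
    have h1 := Int.lt_floor_add_one D
    have h2 : (q : ℝ) = (⌊D⌋ : ℝ) - 1 := by rw [hq]; push_cast; ring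
    linarith
  have hqm : (2 : ℝ) ≤ (q : ℝ) ^ m := by
    calc (2 : ℝ) ≤ (q : ℝ) ^ 1 := by rw [pow_one]; exact hqr
      _ ≤ (q : ℝ) ^ m := pow_le_pow_right₀ (by linarith) hm
  -- the last coordinate of the integer solution
  set h : ℤ := ⌈(q : ℝ) ^ m / 2⌉ with hh
  have hh1 : (q : ℝ) ^ m / 2 ≤ h := Int.le_ceil _
  have hh2 : (h : ℝ) < (q : ℝ) ^ m := by
    have := Int.ceil_lt_add_one ((q : ℝ) ^ m / 2)
    linarith
  set θ : ℝ := h / (q : ℝ) ^ m with hθ
  have hθq : θ * (q : ℝ) ^ m = h := by rw [hθ]; field_simp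
  have hθ1 : θ < 1 := by rw [hθ, div_lt_one (by positivity)]; exact hh2
  have hθ0 : 0 ≤ θ := by
    have h0 : (0 : ℝ) ≤ h := le_trans (by positivity) hh1
    exact div_nonneg h0 (by positivity)
  set z : Fin (m + 1) → ℤ := fun j => if j = Fin.last m then h else q ^ (j : ℕ) with hz
  have hz0 : z 0 = 1 := by
    have h1 : (0 : Fin (m + 1)) ≠ Fin.last m := by
      intro h2
      have h3 := congrArg Fin.val h2
      simp at h3
      omega
    simp [hz, h1]
  have hzl : z (Fin.last m) = h := by simp [hz]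
  have hzge : ∀ j : Fin (m + 1), θ * (q : ℝ) ^ (j : ℕ) ≤ (z j : ℝ) := by
    intro j
    by_cases hj : j = Fin.last m
    · rw [hj, hzl, Fin.val_last, hθq]
    · have h1 : (0 : ℝ) < (q : ℝ) ^ (j : ℕ) := by positivity
      have h2 : (z j : ℝ) = (q : ℝ) ^ (j : ℕ) := by
        simp only [hz, if_neg hj]
        push_cast
        rfl
      rw [h2]
      nlinarith
  have hznn : ∀ j : Fin (m + 1), (0 : ℝ) ≤ (z j : ℝ) := by
    intro j
    have h2 : 0 ≤ θ * (q : ℝ) ^ (j : ℕ) := by positivity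
    exact h2.trans (hzge j)
  set b : Fin m → ℤ := fun i => q * z i.castSucc - z i.succ with hb
  have hbz : ∀ i, ∑ j, (chain m q i j : ℝ) * (z j : ℝ) = b i := by
    intro i
    rw [chain_row]
    simp only [hb]
    push_cast
    ring
  set P := polyhedron (chain m q) b with hP
  -- structure of the polyhedron
  have hstr : ∀ y ∈ P, ∀ j, y j = z j + (y 0 - z 0) * (q : ℝ) ^ (j : ℕ) := by
    intro y hy j
    have h1 := chain_ker m q (fun j => y j - z j) (by
      intro i
      have h2 : ∑ j, (chain m q i j : ℝ) * (y j - z j)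
          = ∑ j, (chain m q i j : ℝ) * y j - ∑ j, (chain m q i j : ℝ) * (z j : ℝ) := by
        rw [← Finset.sum_sub_distrib]
        exact Finset.sum_congr rfl fun j _ => by ring
      rw [h2, hy.1 i, hbz i, sub_self]) j
    have h3 : y j - z j = (y 0 - z 0) * (q : ℝ) ^ (j : ℕ) := h1
    linarith
  have hlow : ∀ y ∈ P, (1 : ℝ) - θ ≤ y 0 := by
    intro y hy
    have h1 := hstr y hy (Fin.last m)
    have h2 := hy.2 (Fin.last m)
    rw [h1, hzl, hz0, Fin.val_last] at h2
    push_cast at h2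
    by_contra hcon
    push Not at hcon
    have h3 : (y 0 - 1) * (q : ℝ) ^ m < -θ * (q : ℝ) ^ m :=
      mul_lt_mul_of_pos_right (by linarith) (by positivity)
    linarith
  -- the vertex
  set x : Fin (m + 1) → ℝ := fun j => z j - θ * (q : ℝ) ^ (j : ℕ) with hx
  have hxP : x ∈ P := by
    refine ⟨fun i => ?_, fun j => ?_⟩
    · rw [chain_row]
      simp only [hx, hb, Fin.val_castSucc, Fin.val_succ]
      push_cast
      ring
    · have := hzge j
      simp only [hx]
      linarith
  have hx0 : x 0 = 1 - θ := by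
    simp only [hx, hz0, Fin.val_zero, pow_zero, mul_one]
    push_cast
    ring
  have heq : ∀ y ∈ P, y 0 = 1 - θ → y = x := by
    intro y hy h1
    funext j
    rw [hstr y hy j, h1, hz0]
    simp only [hx]
    push_cast
    ring
  refine ⟨m + 1, chain m q, b, fun j => if j = 0 then 1 else 0, x,
    chain_norm m (by omega) hqD, ?_, ⟨hxP, ?_⟩, ?_, ?_⟩
  · rw [mem_extremePoints]
    refine ⟨hxP, fun y1 hy1 y2 hy2 hseg => ?_⟩
    obtain ⟨α, β, hα, hβ, hαβ, hcomb⟩ := hseg
    have h1 := congrFun hcomb 0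
    simp only [Pi.add_apply, Pi.smul_apply, smul_eq_mul] at h1
    rw [hx0] at h1
    have h2 := hlow y1 hy1
    have h3 := hlow y2 hy2
    have h4 : y1 0 = 1 - θ := by
      by_contra hne
      have h5 : 1 - θ < y1 0 := lt_of_le_of_ne h2 (Ne.symm hne)
      have h6 : α * (1 - θ) < α * y1 0 := mul_lt_mul_of_pos_left h5 hα
      have h7 : β * (1 - θ) ≤ β * y2 0 := mul_le_mul_of_nonneg_left h3 hβ.le
      have h8 : α * (1 - θ) + β * (1 - θ) = 1 - θ := by rw [← add_mul, hαβ, one_mul]
      linarith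
    have h5 : y2 0 = 1 - θ := by
      by_contra hne
      have h5 : 1 - θ < y2 0 := lt_of_le_of_ne h3 (Ne.symm hne)
      have h6 : β * (1 - θ) < β * y2 0 := mul_lt_mul_of_pos_left h5 hβ
      have h7 : α * (1 - θ) ≤ α * y1 0 := mul_le_mul_of_nonneg_left h2 hα.le
      have h8 : α * (1 - θ) + β * (1 - θ) = 1 - θ := by rw [← add_mul, hαβ, one_mul]
      linarith
    exact ⟨heq y1 hy1 h4, heq y2 hy2 h5⟩
  · intro y hy
    have h1 := hlow y hy
    simp only [ite_mul, one_mul, zero_mul, Finset.sum_ite_eq', Finset.mem_univ, if_true]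
    rw [hx0]
    exact h1
  · exact ⟨fun j => (z j : ℝ), ⟨hbz, fun j => hznn j⟩, fun j => ⟨z j, rfl⟩⟩
  · rintro w ⟨⟨hwP, hwint⟩, hwopt⟩
    obtain ⟨k, hk⟩ := hwint 0
    have h1 := hwopt (fun j => (z j : ℝ)) ⟨⟨hbz, fun j => hznn j⟩, fun j => ⟨z j, rfl⟩⟩
    simp only [ite_mul, one_mul, zero_mul, Finset.sum_ite_eq', Finset.mem_univ, if_true] at h1
    rw [hz0] at h1
    have h2 := hlow w hwP
    have h3 : w 0 = 1 := by
      rw [hk] at h1 h2 ⊢
      have h4 : (k : ℝ) ≤ 1 := by simpa using h1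
      have h5 : (0 : ℝ) < k := by linarith
      have h6 : k ≤ 1 := by exact_mod_cast h4
      have h7 : 0 < k := by exact_mod_cast h5
      have h8 : k = 1 := by omega
      rw [h8]; norm_num
    have h4 : ∀ j, |x j - w j| = θ * (q : ℝ) ^ (j : ℕ) := by
      intro j
      have h5 := hstr w hwP j
      rw [h3, hz0] at h5
      simp only [hx]
      rw [h5]
      push_cast
      rw [show (z j : ℝ) - θ * (q : ℝ) ^ (j : ℕ) - (z j + (1 - 1) * (q : ℝ) ^ (j : ℕ))
        = -(θ * (q : ℝ) ^ (j : ℕ)) by ring, abs_neg, abs_of_nonneg (by positivity)]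
    rw [Finset.sum_congr rfl fun j _ => h4 j]
    calc (1 / 6 * D) ^ m ≤ (1 / 2 * q) ^ m :=
          pow_le_pow_left₀ (by positivity) (by linarith) m
      _ = (1 / 2) ^ m * (q : ℝ) ^ m := mul_pow _ _ _
      _ ≤ 1 / 2 * (q : ℝ) ^ m := by
          apply mul_le_mul_of_nonneg_right _ (by positivity)
          calc ((1 : ℝ) / 2) ^ m ≤ (1 / 2) ^ 1 :=
                pow_le_pow_of_le_one (by norm_num) (by norm_num) hm
            _ = 1 / 2 := pow_one _
      _ ≤ θ * (q : ℝ) ^ ((Fin.last m : Fin (m + 1)) : ℕ) := by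
          rw [Fin.val_last, hθq]
          linarith
      _ ≤ ∑ j : Fin (m + 1), θ * (q : ℝ) ^ (j : ℕ) :=
          Finset.single_le_sum (f := fun j : Fin (m + 1) => θ * (q : ℝ) ^ (j : ℕ))
            (fun j _ => by positivity) (Finset.mem_univ _)

end Vale.Agent.P262.H63
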