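import Vale.Agent.P262.H63.Defs
import Vale.Agent.P262.H63.Graver

/-!
# Proximity of vertices of linear programs and integer solutions (P262)
-/

set_option autoImplicit false

open Finset

namespace Vale.Agent.P262.H63

/-- A vertex of `{x : A x = b, x ≥ 0}` has at most `m` nonzero coordinates. -/
theorem card_support_le {m n : ℕ} (A : Matrix (Fin m) (Fin n) ℤ) (b : Fin m → ℤ)
    {x : Fin n → ℝ} (hx : x ∈ (polyhedron A b).extremePoints ℝ) :
    (univ.filter (fun j => x j ≠ 0)).card ≤ m := by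
  classical
  rw [mem_extremePoints] at hx
  obtain ⟨hxP, hext⟩ := hx
  set s := univ.filter (fun j => x j ≠ 0) with hs
  have hpos : ∀ j ∈ s, 0 < x j := by
    intro j hj
    have h1 := (Finset.mem_filter.1 hj).2
    exact lt_of_le_of_ne (hxP.2 j) (Ne.symm h1)
  have hli : LinearIndependent ℝ (fun j : s => (fun i => (A i j : ℝ) : Fin m → ℝ)) := by
    rw [Fintype.linearIndependent_iff]
    intro g hg
    -- the direction
    set d : Fin n → ℝ := fun j => if h : j ∈ s then g ⟨j, h⟩ else 0 with hd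
    have hd0 : ∀ j, j ∉ s → d j = 0 := fun j hj => by simp [hd, hj]
    have hAd : ∀ i, ∑ j, (A i j : ℝ) * d j = 0 := by
      intro i
      have h1 : ∑ j, (A i j : ℝ) * d j = ∑ j ∈ s, (A i j : ℝ) * d j := by
        symm
        apply Finset.sum_subset (Finset.subset_univ _)
        intro j _ hj
        rw [hd0 j hj, mul_zero]
      rw [h1, ← Finset.sum_coe_sort]
      have h2 := congrFun hg i
      simp only [Finset.sum_apply, Pi.smul_apply, smul_eq_mul, Pi.zero_apply] at h2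
      rw [← h2]
      refine Finset.sum_congr rfl fun j _ => ?_
      have h3 : d j = g j := by simp [hd]
      rw [h3, mul_comm]
    -- a small step
    obtain ⟨ε, hε, hεd⟩ : ∃ ε : ℝ, 0 < ε ∧ ∀ j, ε * |d j| ≤ x j := by
      have h1 : ∀ j, ∃ ε : ℝ, 0 < ε ∧ ε * |d j| ≤ x j := by
        intro j
        by_cases hj : j ∈ s
        · refine ⟨x j / (|d j| + 1), div_pos (hpos j hj) (by positivity), ?_⟩
          rw [div_mul_eq_mul_div, div_le_iff₀ (by positivity)]
          have := hpos j hj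
          nlinarith [abs_nonneg (d j)]
        · refine ⟨1, one_pos, ?_⟩
          rw [hd0 j hj, abs_zero, mul_zero]
          exact hxP.2 j
      choose e he1 he2 using h1
      by_cases hn : (univ : Finset (Fin n)).Nonempty
      · obtain ⟨j0, -, hj0⟩ := Finset.exists_min_image univ e hn
        refine ⟨e j0, he1 j0, fun j => ?_⟩
        exact (mul_le_mul_of_nonneg_right (hj0 j (Finset.mem_univ _)) (abs_nonneg _)).trans
          (he2 j)
      · refine ⟨1, one_pos, fun j => ?_⟩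
        exact absurd ⟨j, Finset.mem_univ j⟩ hn
    have hmem : ∀ t : ℝ, |t| = ε → (fun j => x j + t * d j) ∈ polyhedron A b := by
      intro t ht
      refine ⟨fun i => ?_, fun j => ?_⟩
      · have h1 : ∑ j, (A i j : ℝ) * (x j + t * d j)
            = ∑ j, (A i j : ℝ) * x j + t * ∑ j, (A i j : ℝ) * d j := by
          rw [Finset.mul_sum, ← Finset.sum_add_distrib]
          exact Finset.sum_congr rfl fun j _ => by ring
        rw [h1, hAd i, mul_zero, add_zero]
        exact hxP.1 i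
      · have h1 : |t * d j| ≤ x j := by
          rw [abs_mul, ht]
          exact hεd j
        have := (abs_le.1 h1).1
        linarith
    have h1 := hext _ (hmem ε (abs_of_pos hε)) _ (hmem (-ε) (by rw [abs_neg, abs_of_pos hε])) (by
      rw [openSegment_eq_image]
      refine ⟨1 / 2, by norm_num, ?_⟩
      funext j
      simp only [Pi.add_apply, Pi.smul_apply, smul_eq_mul]
      ring)
    intro j
    have h2 : x j + ε * d j = x j := congrFun h1.1 j
    have h3 : d j = g j := by simp [hd]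
    rw [← h3]
    have h4 : ε * d j = 0 := by linarith
    rcases mul_eq_zero.1 h4 with h5 | h5
    · exact absurd h5 hε.ne'
    · exact h5
  have h1 := hli.fintype_card_le_finrank
  rw [Fintype.card_coe, Module.finrank_fin_fun] at h1
  exact h1

/-- Rounding towards `0`. -/
noncomputable def rz (y : ℝ) : ℤ := if 0 ≤ y then ⌊y⌋ else ⌈y⌉

lemma rz_nonneg {y : ℝ} (h : 0 ≤ y) : 0 ≤ rz y ∧ (rz y : ℝ) ≤ y ∧ y - rz y < 1 := by
  rw [rz, if_pos h]
  refine ⟨Int.floor_nonneg.2 h, Int.floor_le y, ?_⟩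
  have := Int.lt_floor_add_one y
  linarith

lemma rz_neg {y : ℝ} (h : y < 0) : rz y ≤ 0 ∧ y ≤ (rz y : ℝ) ∧ rz y - y < 1 := by
  rw [rz, if_neg (not_le.2 h)]
  refine ⟨?_, Int.le_ceil y, ?_⟩
  · exact Int.ceil_le.2 (by exact_mod_cast h.le)
  · have := Int.ceil_lt_add_one y
    linarith

lemma rz_int (k : ℤ) : rz (k : ℝ) = k := by
  unfold rz
  split_ifs <;> simp

lemma rz_abs (y : ℝ) : |y| = |(rz y : ℝ)| + |y - rz y| ∧ |y - rz y| ≤ 1 := by
  rcases le_or_gt 0 y with h | h
  · obtain ⟨h1, h2, h3⟩ := rz_nonneg h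
    have h1' : (0 : ℝ) ≤ rz y := by exact_mod_cast h1
    rw [abs_of_nonneg h, abs_of_nonneg h1', abs_of_nonneg (by linarith)]
    constructor <;> linarith
  · obtain ⟨h1, h2, h3⟩ := rz_neg h
    have h1' : (rz y : ℝ) ≤ 0 := by exact_mod_cast h1
    rw [abs_of_neg h, abs_of_nonpos h1', abs_of_nonpos (by linarith)]
    constructor <;> linarith

/-- Conformal integer parts. -/
lemma conf {y : ℝ} {w : ℤ} (h : 0 ≤ w * rz y ∧ |w| ≤ |rz y|) :
    (0 ≤ y → 0 ≤ (w : ℝ) ∧ (w : ℝ) ≤ y) ∧ (y < 0 → (w : ℝ) ≤ 0 ∧ y ≤ (w : ℝ)) := by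
  constructor
  · intro hy
    obtain ⟨h1, h2, -⟩ := rz_nonneg hy
    have h3 : 0 ≤ w ∧ w ≤ rz y := by
      rw [abs_of_nonneg h1] at h
      rcases eq_or_lt_of_le h1 with h4 | h4
      · rw [← h4] at h
        have := abs_nonpos_iff.1 h.2
        omega
      · have h5 : 0 ≤ w := by
          by_contra h6
          push Not at h6
          nlinarith [h.1]
        exact ⟨h5, (le_abs_self w).trans h.2⟩
    have h4 : (w : ℝ) ≤ rz y := by exact_mod_cast h3.2
    exact ⟨by exact_mod_cast h3.1, h4.trans h2⟩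
  · intro hy
    obtain ⟨h1, h2, -⟩ := rz_neg hy
    have h3 : w ≤ 0 ∧ rz y ≤ w := by
      rw [abs_of_nonpos h1] at h
      rcases eq_or_lt_of_le h1 with h4 | h4
      · rw [h4] at h
        have h5 : |w| ≤ 0 := by simpa using h.2
        have := abs_nonpos_iff.1 h5
        omega
      · have h5 : w ≤ 0 := by
          by_contra h6
          push Not at h6
          nlinarith [h.1]
        refine ⟨h5, ?_⟩
        have := neg_abs_le w
        omega
    have h4 : (rz y : ℝ) ≤ w := by exact_mod_cast h3.2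
    exact ⟨by exact_mod_cast h3.1, h2.trans h4⟩

/-- The image of the fractional part is small. -/
lemma frac_bound {m n : ℕ} {D : ℝ} (hD : 1 ≤ D) (A : Matrix (Fin m) (Fin n) ℤ)
    (hA : ∀ j, ∑ i, (A i j : ℝ) ^ 2 ≤ D ^ 2) (f : Fin n → ℝ) (hf : ∀ j, |f j| ≤ 1)
    (s : Finset (Fin n)) (hs : ∀ j, j ∉ s → f j = 0) (hcard : s.card ≤ m) :
    ∑ i, (∑ j, (A i j : ℝ) * f j) ^ 2 ≤ (m * D) ^ 2 := by
  have hD0 : 0 < D := by linarith
  set F : Fin n → EuclideanSpace ℝ (Fin m) := fun j => WithLp.toLp 2 (fun i => (A i j : ℝ))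
    with hF
  have hFn : ∀ j, ‖F j‖ ≤ D := by
    intro j
    rw [EuclideanSpace.norm_eq]
    apply Real.sqrt_le_iff.2
    refine ⟨hD0.le, ?_⟩
    refine le_trans (le_of_eq ?_) (hA j)
    refine Finset.sum_congr rfl fun i _ => ?_
    rw [Real.norm_eq_abs, sq_abs]
  have h1 : ‖∑ j ∈ s, f j • F j‖ ≤ m * D := by
    refine (norm_sum_le _ _).trans ?_
    calc ∑ j ∈ s, ‖f j • F j‖ ≤ ∑ _j ∈ s, D := by
          refine Finset.sum_le_sum fun j _ => ?_
          rw [norm_smul, Real.norm_eq_abs]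
          calc |f j| * ‖F j‖ ≤ 1 * D := mul_le_mul (hf j) (hFn j) (norm_nonneg _) zero_le_one
            _ = D := one_mul D
      _ = s.card * D := by rw [Finset.sum_const, nsmul_eq_mul]
      _ ≤ m * D := by
          apply mul_le_mul_of_nonneg_right _ hD0.le
          exact_mod_cast hcard
  have h2 : ∑ i, (∑ j, (A i j : ℝ) * f j) ^ 2 = ‖∑ j ∈ s, f j • F j‖ ^ 2 := by
    rw [EuclideanSpace.norm_sq_eq]
    refine Finset.sum_congr rfl fun i _ => ?_
    rw [Real.norm_eq_abs, sq_abs]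
    congr 1
    simp only [hF, WithLp.ofLp_sum, Finset.sum_apply, PiLp.smul_apply, smul_eq_mul]
    symm
    rw [Finset.sum_subset (Finset.subset_univ s)]
    · exact Finset.sum_congr rfl fun j _ => mul_comm _ _
    · intro j _ hj
      rw [hs j hj, zero_mul]
  rw [h2]
  exact pow_le_pow_left₀ (norm_nonneg _) h1 2

lemma pow_add_le {a b : ℝ} (ha : 0 ≤ a) (hb : 0 ≤ b) {m : ℕ} (hm : 1 ≤ m) :
    a ^ m + b ^ m ≤ (a + b) ^ m := by
  induction m, hm using Nat.le_induction with
  | base => simp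
  | succ m hm ih =>
    have h1 : 0 ≤ a ^ m := pow_nonneg ha m
    have h2 : 0 ≤ b ^ m := pow_nonneg hb m
    calc a ^ (m + 1) + b ^ (m + 1) ≤ (a ^ m + b ^ m) * (a + b) := by
          rw [pow_succ, pow_succ]
          nlinarith [mul_nonneg h1 hb, mul_nonneg h2 ha]
      _ ≤ (a + b) ^ m * (a + b) := mul_le_mul_of_nonneg_right ih (by linarith)
      _ = (a + b) ^ (m + 1) := by rw [pow_succ]

/-- One step towards the vertex. -/
lemma step {K : ℝ} (hord : Ord K) {m n : ℕ} (hm : 1 ≤ m) {D : ℝ} (hD : 1 ≤ D)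
    (A : Matrix (Fin m) (Fin n) ℤ) (hA : ∀ j, ∑ i, (A i j : ℝ) ^ 2 ≤ D ^ 2) (b : Fin m → ℤ)
    (c x : Fin n → ℝ) (hx : x ∈ (polyhedron A b).extremePoints ℝ)
    (hopt : ∀ y ∈ polyhedron A b, ∑ j, c j * x j ≤ ∑ j, c j * y j) (z : Fin n → ℤ)
    (hz : (fun j => (z j : ℝ)) ∈ polyhedron A b)
    (hbig : (CC K * D) ^ m + m < ∑ j, |x j - z j|) :
    ∃ z' : Fin n → ℤ, (fun j => (z' j : ℝ)) ∈ polyhedron A b ∧
      ∑ j, c j * (z' j : ℝ) ≤ ∑ j, c j * (z j : ℝ) ∧
      ∑ j, |x j - z' j| ≤ ∑ j, |x j - z j| - 1 := by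
  classical
  have hxP : x ∈ polyhedron A b := hx.1
  have hsupp := card_support_le A b hx
  set s := univ.filter (fun j => x j ≠ 0) with hs
  set p : Fin n → ℤ := fun j => rz (x j - z j) with hp
  set f : Fin n → ℝ := fun j => (x j - z j) - p j with hf
  have hf1 : ∀ j, |f j| ≤ 1 := fun j => (rz_abs (x j - z j)).2
  have hf0 : ∀ j, j ∉ s → f j = 0 := by
    intro j hj
    have h1 : x j = 0 := by
      by_contra h
      exact hj (Finset.mem_filter.2 ⟨Finset.mem_univ _, h⟩)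
    simp only [hf, hp]
    rw [h1, zero_sub, ← Int.cast_neg, rz_int, sub_self]
  have hfb := frac_bound hD A hA f hf1 s hf0 hsupp
  have hAy : ∀ i, ∑ j, (A i j : ℝ) * (x j - z j) = 0 := by
    intro i
    have h1 := hxP.1 i
    have h2 := hz.1 i
    have h3 : ∑ j, (A i j : ℝ) * (x j - z j)
        = ∑ j, (A i j : ℝ) * x j - ∑ j, (A i j : ℝ) * (z j : ℝ) := by
      rw [← Finset.sum_sub_distrib]
      exact Finset.sum_congr rfl fun j _ => by ring
    rw [h3, h1, h2, sub_self]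
  have hAp : ∀ i, ∑ j, (A i j : ℝ) * (p j : ℝ) = -∑ j, (A i j : ℝ) * f j := by
    intro i
    have h1 : ∑ j, (A i j : ℝ) * (p j : ℝ) + ∑ j, (A i j : ℝ) * f j
        = ∑ j, (A i j : ℝ) * (x j - z j) := by
      rw [← Finset.sum_add_distrib]
      exact Finset.sum_congr rfl fun j _ => by simp only [hf]; ring
    rw [hAy i] at h1
    linarith
  have habs : ∑ j, |x j - z j| = ∑ j, |(p j : ℝ)| + ∑ j, |f j| := by
    rw [← Finset.sum_add_distrib]
    exact Finset.sum_congr rfl fun j _ => (rz_abs (x j - z j)).1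
  have hfs : ∑ j, |f j| ≤ m := by
    have h1 : ∑ j, |f j| = ∑ j ∈ s, |f j| := by
      symm
      apply Finset.sum_subset (Finset.subset_univ _)
      intro j _ hj
      rw [hf0 j hj, abs_zero]
    rw [h1]
    calc ∑ j ∈ s, |f j| ≤ ∑ _j ∈ s, (1 : ℝ) := Finset.sum_le_sum fun j _ => hf1 j
      _ = s.card := by simp
      _ ≤ m := by exact_mod_cast hsupp
  obtain ⟨w, hw0, hwne, -, hwc⟩ := core hord hm hD A hA p (by
      refine le_trans (le_of_eq ?_) hfb
      refine Finset.sum_congr rfl fun i _ => ?_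
      rw [hAp i, neg_sq]) (by linarith)
  have hwA : ∀ i, ∑ j, (A i j : ℝ) * (w j : ℝ) = 0 := by
    intro i
    have h1 := congrFun hw0 i
    rw [Matrix.mulVec, dotProduct, Pi.zero_apply] at h1
    have h2 : ((∑ j, A i j * w j : ℤ) : ℝ) = 0 := by rw [h1]; simp
    push_cast at h2
    exact h2
  have hconf := fun j => conf (hwc j)
  -- the new points are feasible
  have hz' : (fun j => ((z j + w j : ℤ) : ℝ)) ∈ polyhedron A b := by
    refine ⟨fun i => ?_, fun j => ?_⟩
    · have h1 : ∑ j, (A i j : ℝ) * ((z j + w j : ℤ) : ℝ)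
          = ∑ j, (A i j : ℝ) * (z j : ℝ) + ∑ j, (A i j : ℝ) * (w j : ℝ) := by
        rw [← Finset.sum_add_distrib]
        exact Finset.sum_congr rfl fun j _ => by push_cast; ring
      rw [h1, hwA i, add_zero]
      exact hz.1 i
    · have h1 := hz.2 j
      have h2 := hxP.2 j
      simp only at h1
      push_cast
      rcases le_or_gt 0 (x j - z j) with h3 | h3
      · have := ((hconf j).1 h3).1
        linarith
      · have := ((hconf j).2 h3).2
        linarith
  have hx' : (fun j => x j - (w j : ℝ)) ∈ polyhedron A b := by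
    refine ⟨fun i => ?_, fun j => ?_⟩
    · have h1 : ∑ j, (A i j : ℝ) * (x j - (w j : ℝ))
          = ∑ j, (A i j : ℝ) * x j - ∑ j, (A i j : ℝ) * (w j : ℝ) := by
        rw [← Finset.sum_sub_distrib]
        exact Finset.sum_congr rfl fun j _ => by ring
      rw [h1, hwA i, sub_zero]
      exact hxP.1 i
    · have h1 := hz.2 j
      have h2 := hxP.2 j
      simp only at h1
      simp only
      rcases le_or_gt 0 (x j - z j) with h3 | h3
      · have := ((hconf j).1 h3).2
        linarith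
      · have := ((hconf j).2 h3).1
        linarith
  have hcw : ∑ j, c j * (w j : ℝ) ≤ 0 := by
    have h1 : ∑ j, c j * x j ≤ ∑ j, c j * (x j - (w j : ℝ)) := hopt _ hx'
    have h2 : ∑ j, c j * (x j - (w j : ℝ)) = ∑ j, c j * x j - ∑ j, c j * (w j : ℝ) := by
      rw [← Finset.sum_sub_distrib]
      exact Finset.sum_congr rfl fun j _ => by ring
    rw [h2] at h1
    linarith
  refine ⟨fun j => z j + w j, hz', ?_, ?_⟩
  · have h1 : ∑ j, c j * ((z j + w j : ℤ) : ℝ)
        = ∑ j, c j * (z j : ℝ) + ∑ j, c j * (w j : ℝ) := by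
      rw [← Finset.sum_add_distrib]
      exact Finset.sum_congr rfl fun j _ => by push_cast; ring
    rw [h1]
    linarith
  · have h1 : ∀ j, |x j - ((z j + w j : ℤ) : ℝ)| = |x j - z j| - |(w j : ℝ)| := by
      intro j
      push_cast
      rcases le_or_gt 0 (x j - z j) with h3 | h3
      · obtain ⟨h4, h5⟩ := (hconf j).1 h3
        rw [abs_of_nonneg h3, abs_of_nonneg h4, abs_of_nonneg (by linarith)]
        ring
      · obtain ⟨h4, h5⟩ := (hconf j).2 h3
        rw [abs_of_neg h3, abs_of_nonpos h4, abs_of_nonpos (by linarith)]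
        ring
    rw [Finset.sum_congr rfl fun j _ => h1 j, Finset.sum_sub_distrib]
    have h2 : 1 ≤ ∑ j, |(w j : ℝ)| := by
      obtain ⟨j0, hj0⟩ : ∃ j, w j ≠ 0 := by
        by_contra hcon
        push Not at hcon
        exact hwne (funext hcon)
      have h3 : (1 : ℝ) ≤ |(w j0 : ℝ)| := by
        have h4 : 1 ≤ |w j0| := Int.one_le_abs hj0
        exact_mod_cast h4
      exact h3.trans (Finset.single_le_sum (f := fun j => |(w j : ℝ)|)
        (fun j _ => abs_nonneg _) (Finset.mem_univ _))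
    linarith

/-- Iteration of the steps. -/
lemma iter {K : ℝ} (hord : Ord K) {m n : ℕ} (hm : 1 ≤ m) {D : ℝ} (hD : 1 ≤ D)
    (A : Matrix (Fin m) (Fin n) ℤ) (hA : ∀ j, ∑ i, (A i j : ℝ) ^ 2 ≤ D ^ 2) (b : Fin m → ℤ)
    (c x : Fin n → ℝ) (hx : x ∈ (polyhedron A b).extremePoints ℝ)
    (hopt : ∀ y ∈ polyhedron A b, ∑ j, c j * x j ≤ ∑ j, c j * y j) (M : ℕ) :
    ∀ z : Fin n → ℤ, (fun j => (z j : ℝ)) ∈ polyhedron A b → ∑ j, |x j - z j| ≤ M →
    ∃ z' : Fin n → ℤ, (fun j => (z' j : ℝ)) ∈ polyhedron A b ∧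
      ∑ j, c j * (z' j : ℝ) ≤ ∑ j, c j * (z j : ℝ) ∧
      ∑ j, |x j - z' j| ≤ (CC K * D) ^ m + m := by
  induction M with
  | zero =>
    intro z hz hle
    have hCC : 0 ≤ CC K := by unfold CC; positivity
    refine ⟨z, hz, le_rfl, hle.trans ?_⟩
    have : 0 ≤ (CC K * D) ^ m := pow_nonneg (mul_nonneg hCC (by linarith)) m
    push_cast
    positivity
  | succ M ih =>
    intro z hz hle
    by_cases hb : ∑ j, |x j - z j| ≤ (CC K * D) ^ m + m
    · exact ⟨z, hz, le_rfl, hb⟩
    · push Not at hb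
      obtain ⟨z1, h1, h2, h3⟩ := step hord hm hD A hA b c x hx hopt z hz hb
      obtain ⟨z2, h4, h5, h6⟩ := ih z1 h1 (by
        push_cast at hle
        linarith)
      exact ⟨z2, h4, h5.trans h2, h6⟩

/-- **Proximity.** -/
theorem proximity {K : ℝ} (hord : Ord K) {m n : ℕ} (hm : 1 ≤ m) {D : ℝ} (hD : 1 ≤ D)
    (A : Matrix (Fin m) (Fin n) ℤ) (hA : ∀ j, ∑ i, (A i j : ℝ) ^ 2 ≤ D ^ 2) (b : Fin m → ℤ)
    (c x : Fin n → ℝ) (hx : x ∈ (polyhedron A b).extremePoints ℝ)
    (hopt : IsOptimal c (polyhedron A b) x) (hne : (integerPoints (polyhedron A b)).Nonempty) :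
    ∃ z, IsOptimal c (integerPoints (polyhedron A b)) z ∧
      ∑ j, |x j - z j| ≤ ((CC K + 2) * D) ^ m := by
  classical
  have hCC : 0 ≤ CC K := by unfold CC; positivity
  set B : ℝ := (CC K * D) ^ m + m with hB
  have key : ∀ z : Fin n → ℤ, (fun j => (z j : ℝ)) ∈ polyhedron A b →
      ∃ z' : Fin n → ℤ, (fun j => (z' j : ℝ)) ∈ polyhedron A b ∧
        ∑ j, c j * (z' j : ℝ) ≤ ∑ j, c j * (z j : ℝ) ∧ ∑ j, |x j - z' j| ≤ B := by
    intro z hz
    obtain ⟨M, hM⟩ := exists_nat_ge (∑ j, |x j - z j|)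
    exact iter hord hm hD A hA b c x hx hopt.2 M z hz hM
  set F : Set (Fin n → ℤ) := {z | (fun j => (z j : ℝ)) ∈ polyhedron A b ∧
    ∑ j, |x j - z j| ≤ B} with hF
  have hFfin : F.Finite := by
    refine (Set.finite_Icc (fun j => ⌊x j - B⌋) (fun j => ⌈x j + B⌉)).subset ?_
    intro z hz
    have h1 : ∀ j, |x j - z j| ≤ B := fun j =>
      (Finset.single_le_sum (f := fun j => |x j - (z j : ℝ)|) (fun j _ => abs_nonneg _)
        (Finset.mem_univ j)).trans hz.2
    refine ⟨fun j => ?_, fun j => ?_⟩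
    · have h2 := (abs_le.1 (h1 j)).2
      have h3 : (⌊x j - B⌋ : ℝ) ≤ z j := (Int.floor_le _).trans (by linarith)
      exact_mod_cast h3
    · have h2 := (abs_le.1 (h1 j)).1
      have h3 : (z j : ℝ) ≤ ⌈x j + B⌉ := le_trans (by linarith) (Int.le_ceil _)
      exact_mod_cast h3
  obtain ⟨y, hy, hyint⟩ := hne
  choose z hz using hyint
  have hyz : y = fun j => (z j : ℝ) := funext hz
  rw [hyz] at hy
  obtain ⟨z1, h1, -, h3⟩ := key z hy
  obtain ⟨z0, hz0, hmin⟩ := Set.exists_min_image F (fun z => ∑ j, c j * (z j : ℝ)) hFfin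
    ⟨z1, h1, h3⟩
  refine ⟨fun j => (z0 j : ℝ), ⟨⟨hz0.1, fun j => ⟨z0 j, rfl⟩⟩, ?_⟩, ?_⟩
  · rintro y' ⟨hy', hyint'⟩
    choose z' hz' using hyint'
    have hyz' : y' = fun j => (z' j : ℝ) := funext hz'
    rw [hyz'] at hy' ⊢
    obtain ⟨z2, h4, h5, h6⟩ := key z' hy'
    exact (hmin z2 ⟨h4, h6⟩).trans h5
  · refine hz0.2.trans ?_
    have h4 : (m : ℝ) ≤ (2 * D) ^ m := by
      have h5 : (m : ℝ) ≤ 2 ^ m := by exact_mod_cast (Nat.lt_two_pow_self (n := m)).le
      exact h5.trans (pow_le_pow_left₀ (by norm_num) (by linarith) m)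
    calc B ≤ (CC K * D) ^ m + (2 * D) ^ m := by rw [hB]; linarith
      _ ≤ (CC K * D + 2 * D) ^ m :=
        pow_add_le (mul_nonneg hCC (by linarith)) (by linarith) hm
      _ = ((CC K + 2) * D) ^ m := by ring_nf

end Vale.Agent.P262.H63
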