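import Vale.Agent.P262.H63.Low
import Vale.Agent.P262.H63.Low2
import Vale.Agent.P262.H63.Prox

/-!
# Integer programming bounds from the order of the Euclidean Steinitz constant: assembly (P262)
-/

set_option autoImplicit false

open Finset
open scoped ENNReal

namespace Vale.Agent.P262.H63

open Vale.Agent.P262 Vale.Agent.P262.H691

lemma colNorm_sq {m n : ℕ} {A : Matrix (Fin m) (Fin n) ℤ} {D : ℝ} (hD : 1 ≤ D)
    (h : ColNormLE A D) : ∀ j, ∑ i, (A i j : ℝ) ^ 2 ≤ D ^ 2 := fun j =>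
  (Real.sqrt_le_left (by linarith)).1 (h j)

/-- Norm bound for the Graver basis. -/
theorem graver_le {K : ℝ} (hord : Ord K) {m n : ℕ} (hm : 1 ≤ m) {D : ℝ} (hD : 1 ≤ D)
    (A : Matrix (Fin m) (Fin n) ℤ) (hA : ∀ j, ∑ i, (A i j : ℝ) ^ 2 ≤ D ^ 2) (u : Fin n → ℤ)
    (hu : IsGraver A u) : ∑ j, |(u j : ℝ)| ≤ (CC K * D) ^ m := by
  by_contra hcon
  push Not at hcon
  have hz : ∀ i, ∑ j, (A i j : ℝ) * (u j : ℝ) = 0 := by
    intro i
    have h1 := congrFun hu.2.1 i
    rw [Matrix.mulVec, dotProduct, Pi.zero_apply] at h1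
    have h2 : ((∑ j, A i j * u j : ℤ) : ℝ) = 0 := by rw [h1]; simp
    push_cast at h2
    exact h2
  obtain ⟨w, h1, h2, h3, h4⟩ := core hord hm hD A hA u (by
    have h5 : ∑ i, (∑ j, (A i j : ℝ) * (u j : ℝ)) ^ 2 = 0 := by
      refine Finset.sum_eq_zero fun i _ => ?_
      rw [hz i]
      norm_num
    rw [h5]
    positivity) hcon
  rcases hu.2.2 w h1 h4 with h5 | h5
  · exact h2 h5
  · exact h3 h5

/-- The orders of the two constants of the problem, the order of the largest Graver basis element,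
and proximity of vertices and integer solutions. -/
theorem main : ∃ c C : ℝ, 0 < c ∧ 0 < C ∧
    (∀ d : ℕ, 1 ≤ d →
      (ENNReal.ofReal (c * Real.sqrt d) ≤ steinitzConst d ∧
        steinitzConst d ≤ ENNReal.ofReal (C * Real.sqrt d)) ∧
      (ENNReal.ofReal (Real.sqrt d) ≤ signedConst d ∧
        signedConst d ≤ ENNReal.ofReal (C * (Real.sqrt d * Real.log (d + 1))))) ∧
    (∀ (m n : ℕ) (A : Matrix (Fin m) (Fin n) ℤ) (D : ℝ), 1 ≤ m → 1 ≤ D → ColNormLE A D →
      ∀ u : Fin n → ℤ, IsGraver A u → ∑ j, |(u j : ℝ)| ≤ (C * D) ^ m) ∧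
    (∀ (m : ℕ) (D : ℝ), 1 ≤ m → 2 ≤ D → ∃ (n : ℕ) (A : Matrix (Fin m) (Fin n) ℤ)
      (u : Fin n → ℤ), ColNormLE A D ∧ IsGraver A u ∧ (c * D) ^ m ≤ ∑ j, |(u j : ℝ)|) ∧
    (∀ (m n : ℕ) (A : Matrix (Fin m) (Fin n) ℤ) (D : ℝ), 1 ≤ m → 1 ≤ D → ColNormLE A D →
      ∀ (b : Fin m → ℤ) (a x : Fin n → ℝ), x ∈ (polyhedron A b).extremePoints ℝ →
        IsOptimal a (polyhedron A b) x → (integerPoints (polyhedron A b)).Nonempty →
        ∃ z, IsOptimal a (integerPoints (polyhedron A b)) z ∧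
          ∑ j, |x j - z j| ≤ (C * D) ^ m) ∧
    (∀ (m : ℕ) (D : ℝ), 1 ≤ m → 3 ≤ D → ∃ (n : ℕ) (A : Matrix (Fin m) (Fin n) ℤ)
      (b : Fin m → ℤ) (a x : Fin n → ℝ), ColNormLE A D ∧
        x ∈ (polyhedron A b).extremePoints ℝ ∧ IsOptimal a (polyhedron A b) x ∧
        (integerPoints (polyhedron A b)).Nonempty ∧
        ∀ z, IsOptimal a (integerPoints (polyhedron A b)) z →
          (c * D) ^ m ≤ ∑ j, |x j - z j|) := by
  obtain ⟨c, C, hc, hC, hmain⟩ := steinitz_lp_order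
  -- orderings of arbitrary families
  have hord : Ord C := by
    intro d hd N v hv
    obtain ⟨π, hπ⟩ := ((hmain d hd).2.2.2 (EuclideanSpace ℝ (Fin d)) LinearMap.id 1 zero_le_one
      (fun x => by simp)).2.2 N v hv
    refine ⟨π, fun k hk => ?_⟩
    have h1 := hπ k hk
    rwa [mul_one] at h1
  have hCC : 0 < CC C := by unfold CC; positivity
  have hcmin : 0 < min c (1 / 6) := lt_min hc (by norm_num)
  refine ⟨min c (1 / 6), C + CC C + 2, hcmin, by positivity, fun d hd => ?_, ?_, ?_, ?_, ?_⟩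
  · have h0 := Real.sqrt_nonneg (d : ℝ)
    have hlog : 0 ≤ Real.log ((d : ℝ) + 1) :=
      Real.log_nonneg (by have : (0 : ℝ) ≤ d := Nat.cast_nonneg d; linarith)
    obtain ⟨⟨h1, h2⟩, h3, h4⟩ := (hmain d hd).1
    refine ⟨⟨?_, ?_⟩, h3, ?_⟩
    · exact le_trans (ENNReal.ofReal_le_ofReal
        (mul_le_mul_of_nonneg_right (min_le_left _ _) h0)) h1
    · exact h2.trans (ENNReal.ofReal_le_ofReal
        (mul_le_mul_of_nonneg_right (by linarith) h0))
    · exact h4.trans (ENNReal.ofReal_le_ofReal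
        (mul_le_mul_of_nonneg_right (by linarith) (mul_nonneg h0 hlog)))
  · intro m n A D hm hD hA u hu
    refine (graver_le hord hm hD A (colNorm_sq hD hA) u hu).trans ?_
    exact pow_le_pow_left₀ (mul_nonneg hCC.le (by linarith))
      (mul_le_mul_of_nonneg_right (by linarith) (by linarith)) m
  · intro m D _ hD
    obtain ⟨n, A, u, h1, h2, h3⟩ := exists_large (m := m) hD
    refine ⟨n, A, u, h1, h2, le_trans ?_ h3⟩
    have h4 : min c (1 / 6) ≤ 1 / 3 := (min_le_right _ _).trans (by norm_num)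
    exact pow_le_pow_left₀ (mul_nonneg hcmin.le (by linarith))
      (mul_le_mul_of_nonneg_right h4 (by linarith)) m
  · intro m n A D hm hD hA b a x hx hopt hne
    obtain ⟨z, h1, h2⟩ := proximity hord hm hD A (colNorm_sq hD hA) b a x hx hopt hne
    refine ⟨z, h1, h2.trans ?_⟩
    exact pow_le_pow_left₀ (mul_nonneg (by linarith) (by linarith))
      (mul_le_mul_of_nonneg_right (by linarith) (by linarith)) m
  · intro m D hm hD
    obtain ⟨n, A, b, a, x, h1, h2, h3, h4, h5⟩ := exists_far hm hD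
    refine ⟨n, A, b, a, x, h1, h2, h3, h4, fun z hz => le_trans ?_ (h5 z hz)⟩
    exact pow_le_pow_left₀ (mul_nonneg hcmin.le (by linarith))
      (mul_le_mul_of_nonneg_right (min_le_right _ _) (by linarith)) m

end Vale.Agent.P262.H63
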