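import Vale.Agent.P262.H691.Final
import Vale.Agent.P262.H63.Count

/-!
# Proper zero-sum subfamilies of integer vectors (P262)
-/

set_option autoImplicit false

open Finset

namespace Vale.Agent.P262.H63

open Vale.Agent.P262.H691

/-- Good orderings of arbitrary families in the Euclidean unit ball. -/
def Ord (K : ℝ) : Prop :=
  ∀ d : ℕ, 1 ≤ d → ∀ (N : ℕ) (v : Fin N → EuclideanSpace ℝ (Fin d)), (∀ i, ‖v i‖ ≤ 1) →
    ∃ π : Equiv.Perm (Fin N), ∀ k : ℕ, k ≤ N →
      ‖prefixSum (fun i => v (π i)) k - ((k : ℝ) / N) • ∑ i, v i‖ ≤ K * Real.sqrt d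

/-- Families of more than `(C D)^m` integer vectors of Euclidean norm at most `D` whose sum has
norm at most `m D` have a nonempty proper zero-sum subfamily. -/
theorem exists_sub {K : ℝ} (hord : Ord K) {m : ℕ} (hm : 1 ≤ m) {D : ℝ} (hD : 1 ≤ D)
    {N : ℕ} (v : Fin N → Fin m → ℤ) (hv : ∀ i, ∑ j, (v i j : ℝ) ^ 2 ≤ D ^ 2)
    (hs : ∑ j, (∑ i, (v i j : ℝ)) ^ 2 ≤ (m * D) ^ 2)
    (hN : (18 * Real.exp ((K + 1) ^ 2) * D) ^ m < N) :
    ∃ S : Finset (Fin N), S.Nonempty ∧ S ≠ univ ∧ ∀ j, ∑ i ∈ S, v i j = 0 := by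
  classical
  have hD0 : 0 < D := by linarith
  have hm0 : (0 : ℝ) < m := by exact_mod_cast hm
  have hN0 : (0 : ℝ) < N := lt_of_le_of_lt (by positivity) hN
  -- scaled vectors
  set w : Fin N → EuclideanSpace ℝ (Fin m) := fun i => WithLp.toLp 2 (fun j => (v i j : ℝ) / D)
    with hw
  have hwn : ∀ i, ‖w i‖ ≤ 1 := by
    intro i
    rw [EuclideanSpace.norm_eq, Real.sqrt_le_one]
    have h1 : ∑ j, ‖(w i) j‖ ^ 2 = (∑ j, (v i j : ℝ) ^ 2) / D ^ 2 := by
      rw [Finset.sum_div]
      refine Finset.sum_congr rfl fun j _ => ?_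
      rw [Real.norm_eq_abs, sq_abs, ← div_pow]
    rw [h1, div_le_one (by positivity)]
    exact hv i
  obtain ⟨π, hπ⟩ := hord m hm N w hwn
  -- the sum of the scaled vectors
  set s : EuclideanSpace ℝ (Fin m) := ∑ i, w i with hsdef
  have hsn : ‖s‖ ≤ m := by
    rw [EuclideanSpace.norm_eq]
    apply Real.sqrt_le_iff.2
    refine ⟨hm0.le, ?_⟩
    have h1 : ∑ j, ‖s j‖ ^ 2 = (∑ j, (∑ i, (v i j : ℝ)) ^ 2) / D ^ 2 := by
      rw [Finset.sum_div]
      refine Finset.sum_congr rfl fun j _ => ?_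
      rw [Real.norm_eq_abs, sq_abs, ← div_pow]
      congr 1
      simp only [hsdef, hw, WithLp.ofLp_sum, Finset.sum_apply, Finset.sum_div]
    rw [h1, div_le_iff₀ (by positivity)]
    calc ∑ j, (∑ i, (v i j : ℝ)) ^ 2 ≤ (m * D) ^ 2 := hs
      _ = m ^ 2 * D ^ 2 := by ring
  -- integer partial sums
  set P : ℕ → Fin m → ℤ := fun k j => ∑ i : Fin N with i.val < k, v (π i) j with hP
  -- centres
  set c : ℕ → Fin m → ℝ := fun b j => D * (((b : ℝ) / m) * s j) with hc
  have hclose : ∀ k, k < N → ∃ b ∈ range m,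
      ∑ j, ((P k j : ℝ) - c b j) ^ 2 ≤ (K + 1) ^ 2 * m * D ^ 2 := by
    intro k hk
    refine ⟨⌊(k : ℝ) * m / N⌋₊, ?_, ?_⟩
    · rw [Finset.mem_range]
      have h1 : (k : ℝ) * m / N < m := by
        rw [div_lt_iff₀ hN0]
        have : (k : ℝ) < N := by exact_mod_cast hk
        nlinarith
      exact (Nat.floor_lt (by positivity)).2 h1
    · set b := ⌊(k : ℝ) * m / N⌋₊ with hb
      have hb1 : (b : ℝ) ≤ (k : ℝ) * m / N := Nat.floor_le (by positivity)
      have hb2 : (k : ℝ) * m / N < b + 1 := Nat.lt_floor_add_one _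
      have h1 := hπ k hk.le
      -- distance from the point of the segment to the centre
      have h2 : ‖((k : ℝ) / N) • s - ((b : ℝ) / m) • s‖ ≤ 1 := by
        rw [← sub_smul, norm_smul, Real.norm_eq_abs]
        have h3 : |(k : ℝ) / N - (b : ℝ) / m| ≤ 1 / m := by
          rw [abs_le]
          have e1 : (k : ℝ) / N = ((k : ℝ) * m / N) / m := by field_simp
          rw [e1, ← sub_div]
          constructor
          · have : (0 : ℝ) ≤ ((k : ℝ) * m / N - b) / m := div_nonneg (by linarith) hm0.le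
            have : (0 : ℝ) ≤ 1 / m := by positivity
            linarith
          · exact div_le_div_of_nonneg_right (by linarith) hm0.le
        calc |(k : ℝ) / N - (b : ℝ) / m| * ‖s‖ ≤ (1 / m) * m :=
              mul_le_mul h3 hsn (norm_nonneg _) (by positivity)
          _ = 1 := by field_simp
      have h4 : ‖prefixSum (fun i => w (π i)) k - ((b : ℝ) / m) • s‖ ≤ (K + 1) * Real.sqrt m := by
        have h5 : prefixSum (fun i => w (π i)) k - ((b : ℝ) / m) • s
            = (prefixSum (fun i => w (π i)) k - ((k : ℝ) / N) • s)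
              + (((k : ℝ) / N) • s - ((b : ℝ) / m) • s) := by abel
        rw [h5]
        refine (norm_add_le _ _).trans ?_
        have h6 : (1 : ℝ) ≤ Real.sqrt m := by
          rw [Real.one_le_sqrt]
          exact_mod_cast hm
        linarith
      have h7 : ∑ j, ((P k j : ℝ) - c b j) ^ 2
          = D ^ 2 * ‖prefixSum (fun i => w (π i)) k - ((b : ℝ) / m) • s‖ ^ 2 := by
        rw [EuclideanSpace.norm_sq_eq, Finset.mul_sum]
        refine Finset.sum_congr rfl fun j _ => ?_
        rw [Real.norm_eq_abs, sq_abs, ← mul_pow]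
        congr 1
        simp only [hP, hc, prefixSum, hw, PiLp.sub_apply, PiLp.smul_apply, smul_eq_mul,
          WithLp.ofLp_sum, Finset.sum_apply, Int.cast_sum]
        rw [mul_sub, Finset.mul_sum]
        congr 1
        refine Finset.sum_congr rfl fun i _ => ?_
        field_simp
      rw [h7]
      have h8 : ‖prefixSum (fun i => w (π i)) k - ((b : ℝ) / m) • s‖ ^ 2
          ≤ ((K + 1) * Real.sqrt m) ^ 2 := pow_le_pow_left₀ (norm_nonneg _) h4 2
      have h9 : ((K + 1) * Real.sqrt m) ^ 2 = (K + 1) ^ 2 * m := by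
        rw [mul_pow, Real.sq_sqrt hm0.le]
      rw [h9] at h8
      nlinarith [sq_nonneg D, mul_le_mul_of_nonneg_left h8 (sq_nonneg D)]
  -- counting
  set Q : Finset (Fin m → ℤ) := (range N).image P with hQ
  have hQsub : Q ⊆ (range m).biUnion
      (fun b => Q.filter (fun z => ∑ j, ((z j : ℝ) - c b j) ^ 2 ≤ (K + 1) ^ 2 * m * D ^ 2)) := by
    intro z hz
    have hz' := hz
    rw [hQ, Finset.mem_image] at hz
    obtain ⟨k, hk, rfl⟩ := hz
    obtain ⟨b, hb, hb'⟩ := hclose k (Finset.mem_range.1 hk)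
    rw [Finset.mem_biUnion]
    exact ⟨b, hb, Finset.mem_filter.2 ⟨hz', hb'⟩⟩
  have hQcard : (Q.card : ℝ) ≤ (18 * Real.exp ((K + 1) ^ 2) * D) ^ m := by
    have h1 : (Q.card : ℝ) ≤ ∑ b ∈ range m, ((Q.filter (fun z =>
        ∑ j, ((z j : ℝ) - c b j) ^ 2 ≤ (K + 1) ^ 2 * m * D ^ 2)).card : ℝ) := by
      exact_mod_cast (Finset.card_le_card hQsub).trans Finset.card_biUnion_le
    have h2 : ∀ b ∈ range m, ((Q.filter (fun z =>
        ∑ j, ((z j : ℝ) - c b j) ^ 2 ≤ (K + 1) ^ 2 * m * D ^ 2)).card : ℝ)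
        ≤ (9 * Real.exp ((K + 1) ^ 2) * D) ^ m := by
      intro b _
      exact card_ball D ((K + 1) ^ 2) hD (c b) _ (fun z hz => (Finset.mem_filter.1 hz).2)
    refine h1.trans ((Finset.sum_le_sum h2).trans ?_)
    rw [Finset.sum_const, Finset.card_range, nsmul_eq_mul]
    have h3 : (m : ℝ) ≤ 2 ^ m := by exact_mod_cast (Nat.lt_two_pow_self (n := m)).le
    calc (m : ℝ) * (9 * Real.exp ((K + 1) ^ 2) * D) ^ m
        ≤ 2 ^ m * (9 * Real.exp ((K + 1) ^ 2) * D) ^ m :=
          mul_le_mul_of_nonneg_right h3 (by positivity)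
      _ = (18 * Real.exp ((K + 1) ^ 2) * D) ^ m := by rw [← mul_pow]; ring_nf
  have hlt : Q.card < (range N).card := by
    rw [Finset.card_range]
    have : (Q.card : ℝ) < N := lt_of_le_of_lt hQcard hN
    exact_mod_cast this
  obtain ⟨k, hk, l, hl, hne, hkl⟩ := Finset.exists_ne_map_eq_of_card_lt_of_maps_to hlt
    (fun k hk => Finset.mem_image_of_mem P hk)
  -- wlog k < l
  obtain ⟨k, l, hkl', hl', hPP⟩ : ∃ k l : ℕ, k < l ∧ l < N ∧ P k = P l := by
    rcases lt_or_gt_of_ne hne with h | h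
    · exact ⟨k, l, h, Finset.mem_range.1 hl, hkl⟩
    · exact ⟨l, k, h, Finset.mem_range.1 hk, hkl.symm⟩
  refine ⟨(univ.filter (fun i : Fin N => k ≤ i.val ∧ i.val < l)).map π.toEmbedding, ?_, ?_, ?_⟩
  · rw [Finset.map_nonempty]
    exact ⟨⟨k, by omega⟩, by simp [hkl']⟩
  · intro h
    have h1 := congrArg Finset.card h
    rw [Finset.card_map, Finset.card_univ, Fintype.card_fin] at h1
    have h2 : (univ.filter (fun i : Fin N => k ≤ i.val ∧ i.val < l)) ⊆
        univ.erase (⟨l, hl'⟩ : Fin N) := by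
      intro i hi
      rw [Finset.mem_filter] at hi
      rw [Finset.mem_erase]
      refine ⟨?_, Finset.mem_univ _⟩
      rintro rfl
      exact absurd hi.2.2 (lt_irrefl _)
    have h3 := Finset.card_le_card h2
    rw [Finset.card_erase_of_mem (Finset.mem_univ _), Finset.card_univ, Fintype.card_fin] at h3
    omega
  · intro j
    rw [Finset.sum_map]
    have h1 := congrFun hPP j
    simp only [hP] at h1
    have h2 : ∑ i : Fin N with i.val < l, v (π i) j
        = ∑ i : Fin N with i.val < k, v (π i) j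
          + ∑ i ∈ univ.filter (fun i : Fin N => k ≤ i.val ∧ i.val < l), v (π i) j := by
      rw [← Finset.sum_union]
      · refine Finset.sum_congr ?_ fun _ _ => rfl
        ext i
        simp only [Finset.mem_filter, Finset.mem_univ, true_and, Finset.mem_union]
        omega
      · rw [Finset.disjoint_filter]
        intro i _ h3 h4
        omega
    rw [h2] at h1
    simp only [Equiv.coe_toEmbedding]
    linarith

end Vale.Agent.P262.H63
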